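import Vale.Agent.P277.H264.Cy

/-!
# P277: arbitrary NQC generalized pairs on compact Kähler fourfolds of terminal Calabi-Yau type
-/

open scoped Manifold ContDiff
open Vale.Agent.P277 hiding Amin IsFlipR
open Vale.Agent.P272.K Vale.Agent.P285.H281.FD Vale.Agent.P277.HD Set

namespace Vale.Agent.Results.P277.LogCalabiYau

theorem result (Y : Type) [TopologicalSpace Y] [T2Space Y] [CompactSpace Y]
    [ChartedSpace (Cm 4) Y] [IsManifold 𝓘(ℂ, Cm 4) ω Y]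
    (χ : Chart 4 Y → Cm 4 → Matrix (Fin 4) (Fin 4) ℂ)
    (hχ : IsKahler χ) (k s : ℕ) (M : Fin (k + s) → Bd Y) (hM : ∀ e, IsLB 4 (M e))
    (hnef : ∀ e : Fin k, Nef χ (M (Fin.castAdd s e))) (m : Fin (k + s) → ℕ)
    (hm : ∀ e : Fin k, 1 ≤ m (Fin.castAdd s e)) (hm0 : ∀ i : Fin s, m (Fin.natAdd k i) = 0)
    (H : Fin s → Type)
    [∀ i, TopologicalSpace (H i)] [∀ i, T2Space (H i)] [∀ i, CompactSpace (H i)]
    [∀ i, ConnectedSpace (H i)] [∀ i, ChartedSpace (Cm 3) (H i)]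
    [∀ i, IsManifold 𝓘(ℂ, Cm 3) ω (H i)] (ι : ∀ i, H i → Y)
    (sg : ∀ i : Fin s, (M (Fin.natAdd k i)).ι → Y → ℂ)
    (hbd : ∀ i, IsBd (ι i) (M (Fin.natAdd k i)) (sg i))
    (hdisj : Pairwise fun i j => Disjoint (range (ι i)) (range (ι j)))
    (W : CSp) (X Z : ℕ → CSp) (r : ℕ) (v : Y → W.pt) (p : W.pt → (X 0).pt) (P : Bd W.pt)
    (G : Fin r → Set Y) (hG : IsRes v p P G) (hne : ∀ i, ¬ range (ι i) ⊆ ⋃ l, G l)
    (f : ∀ j, (X j).pt → (Z j).pt) (f' : ∀ j, (X (j + 1)).pt → (Z j).pt)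
    (A : ∀ j, Set (Z j).pt) (L : ∀ j, Fin (k + s) → Bd (X j).pt) (c : ℕ → Fin (k + s) → ℕ)
    (hc : ∀ j e, 1 ≤ c j e) (n : Fin (k + s) → Fin r → ℤ)
    (hL : ∃ t, IsCmpV (fun y => p (v y)) (L 0)
      (fun e => (((Bd.can 4 Y).pow (m e)).mul (M e)).pow (c 0 e)) G n t)
    (ρ σ : Fin (k + s) → ℝ)
    (hσ : (∃ μ : ℝ, 0 ≤ μ ∧ IsRTriv (X 0) (L 0) (c 0) fun e => σ e - μ * ρ e) ∨
      ∀ j, IsRSemi (X j) (Z j) (f j) (L j) (c j) (fun e => -σ e) ∧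
        IsRSemi (X (j + 1)) (Z j) (f' j) (L (j + 1)) (c (j + 1)) σ)
    (hsum : ∑ e, σ e * m e = 1) (hpos : ∀ e, 0 < σ e ∨ σ e = 0 ∧ 0 < ρ e)
    (hb : ∀ i : Fin s, σ (Fin.natAdd k i) < 1 ∨
      σ (Fin.natAdd k i) = 1 ∧ ρ (Fin.natAdd k i) < ∑ e, ρ e * m e)
    (ha : ∀ l, 0 < ∑ e, σ e * n e l / c 0 e ∨
      ∑ e, σ e * n e l / c 0 e = 0 ∧ 0 ≤ ∑ e, ρ e * n e l / c 0 e) :
    ¬ ∀ j, IsFlipR (X j) (Z j) (X (j + 1)) (f j) (f' j) (A j) (L j) (L (j + 1)) (c j)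
      (c (j + 1)) ρ := fun hflip =>
  H264.no_seq Y χ hχ k s M hM hnef m hm hm0 H ι sg hbd hdisj W X Z r v p P G hG hne f f' A L c
    hc n hL ρ σ hflip hσ hsum hpos hb ha

end Vale.Agent.Results.P277.LogCalabiYau
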